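import Mathlib
import Vale.Agent.P330.SixthIter
import Vale.Agent.P330.Reduction
import Vale.Agent.P330.Robust
import Vale.Agent.P330.AmpFinal
import Vale.Agent.P330.AmpStatement

namespace Vale.Agent.Results.P330.Amplify

open Vale.Agent.P330

/-- The role of the precision `ε` in the problem of satisfying all but a `δ` fraction of the gates
of a generalized circuit: `EasySide` (every `ε ≥ 1/6` is easy), `PureToGen` (a gap-preserving map from
Pure-Circuit to precision `ε`, for every `ε < 1/6`) and `Amplification` (gap-preserving maps from any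
precision `ε₀ < 1/6` to Pure-Circuit, and to all precisions `ε < 1/6` at once). -/
theorem result : EasySide ∧ PureToGen ∧ Amplification := by
  refine ⟨fun V _ G ε => ⟨fun h1 h2 => ⟨fun v => St.val_mem h1 h2 _,
    fun v k hg => solve6_sat G h1 h2 v k hg⟩, fun h1 h2 => ?_, fun h2 v k hg => sat_half G h2 v k hg⟩,
    fun N _ C ε h6 => ⟨gates_ncard_le C, fun x hx δ hδ => viol_fraction C h6 x hx hδ⟩,
    fun ε₀ δ₀ h0 h6 hδ => ⟨ampK ε₀, ampD δ₀, ampDelta ε₀ δ₀, ampDelta_pos hδ, fun V _ G =>
      ⟨by rw [Nat.card_eq_fintype_card]; exact pure_gates_le G _,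
        fun y hy => ⟨fun v => readOff_mem _ _ v, pure_fraction G h0 h6 hδ y hy⟩,
        by rw [Nat.card_eq_fintype_card]; exact amp_gates_le G _ _, fun ε hε x hx hv =>
          ⟨fun v => readOff_mem _ _ v, amp_fraction G h0 h6 hδ hε x hx hv⟩⟩⟩⟩
  obtain ⟨hfix, hrange⟩ := solve_fixed G h1 h2
  refine ⟨fun v => ?_, fun v k hg => sat_of_fixed G h1 h2.le hrange hfix v k hg⟩
  have := hrange v
  constructor <;> linarith [this.1, this.2]

end Vale.Agent.Results.P330.Amplify
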