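import Mathlib
import Vale.Agent.P330.AccDefs
import Vale.Agent.Results.P330.Amplify

namespace Vale.Agent.Results.P330.AcceptableForm

open Vale.Agent.P330

/-- The role of the precision `ε` in the search for acceptable assignments (values in `[0,1]`, at
least `(1 - δ) |T|` gates `ε`-satisfied) of generalized circuits.
(1) For `ε ≥ 1/6` and every `δ ≥ 0` the explicit assignment `G.easy ε` is acceptable.
(2) For `ε < 1/6`: acceptable assignments of `C.toGen` round to assignments of the Pure-Circuit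
instance `C` satisfying all but a `26 δ` fraction of its gates.
(3) For `0 < ε₀ < 1/6`, `δ₀ > 0` there are `k`, `D`, `δ > 0` such that acceptable assignments of the
linear-size instances `G.toPure k (G.keep D)` (fraction `26 δ`) and `G.amp k D` (any precision
`ε < 1/6`, fraction `δ`) are read off as `(ε₀, δ₀)`-acceptable assignments of `G`. -/
theorem result :
    (∀ (V : Type) [Fintype V] (G : GenCircuit V) (ε δ : ℚ), 1 / 6 ≤ ε → 0 ≤ δ →
      G.Acceptable ε δ (G.easy ε)) ∧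
    (∀ (N : Type) [Finite N] (C : PureCircuit N) (ε δ : ℚ), ε < 1 / 6 →
      C.toGen.gates.ncard ≤ 13 * C.gates.ncard ∧
      ∀ x : N ⊕ (N × Aux) → ℚ, C.toGen.Acceptable ε δ x →
        C.Acceptable (26 * δ) (fun v => dec ε (x (Sum.inl v)))) ∧
    (∀ ε₀ δ₀ : ℚ, 0 < ε₀ → ε₀ < 1 / 6 → 0 < δ₀ → ∃ (k D : ℕ) (δ : ℚ), 0 < δ ∧
      ∀ (V : Type) [Finite V] (G : GenCircuit V),
        (G.toPure k (G.keep D)).gates.ncard ≤ Nat.card (Gad k) * G.gates.ncard ∧
        (∀ y : V × Gad k → Tri, (G.toPure k (G.keep D)).Acceptable (26 * δ) y →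
          G.Acceptable ε₀ δ₀ (readOff (G.keep D) y)) ∧
        (G.amp k D).gates.ncard ≤ 13 * Nat.card (Gad k) * G.gates.ncard ∧
        (∀ ε : ℚ, ε < 1 / 6 → ∀ x : (V × Gad k) ⊕ ((V × Gad k) × Aux) → ℚ,
          (G.amp k D).Acceptable ε δ x → G.Acceptable ε₀ δ₀ (G.back k D ε x))) := by
  obtain ⟨hA, hB, hC⟩ := Vale.Agent.Results.P330.Amplify.result
  refine ⟨fun V _ G ε δ h6 hδ => ?_, fun N _ C ε δ h6 => ⟨(hB N C ε h6).1, fun x hx => ?_⟩,
    fun ε₀ δ₀ h0 h6 hδ => ?_⟩
  · obtain ⟨h1, h2, h3⟩ := hA V G ε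
    have key : ∀ x : V → ℚ, (∀ v, 0 ≤ x v ∧ x v ≤ 1) →
        (∀ v k, G.gate v = some k → k.Sat ε x v) → G.Acceptable ε δ x := by
      intro x hx hs
      rw [GenCircuit.acceptable_iff]
      refine ⟨hx, ?_⟩
      have he : G.viol ε x = ∅ := by
        ext v
        simp only [GenCircuit.viol, Set.mem_ofPred_eq, Set.mem_empty_iff_false, iff_false]
        rintro ⟨k, hk, hn⟩
        exact hn (hs v k hk)
      rw [he, Set.ncard_empty]
      have : (0 : ℚ) ≤ (G.gates.ncard : ℚ) := Nat.cast_nonneg _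
      simpa using mul_nonneg hδ this
    unfold GenCircuit.easy
    split_ifs with h4 h5
    · exact key _ (h1 h6 h4).1 (h1 h6 h4).2
    · exact key _ (h2 (not_lt.1 h4) h5).1 (h2 (not_lt.1 h4) h5).2
    · exact key _ (fun _ => by norm_num) (h3 (not_lt.1 h5))
  · rw [GenCircuit.acceptable_iff] at hx
    rw [PureCircuit.acceptable_iff]
    exact (hB N C ε h6).2 x hx.1 δ hx.2
  · obtain ⟨k, D, δ, hpos, h⟩ := hC ε₀ δ₀ h0 h6 hδ
    refine ⟨k, D, δ, hpos, fun V _ G => ?_⟩
    obtain ⟨g1, g2, g3, g4⟩ := h V G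
    refine ⟨g1, fun y hy => ?_, g3, fun ε hε x hx => ?_⟩
    · rw [PureCircuit.acceptable_iff] at hy
      rw [GenCircuit.acceptable_iff]
      exact g2 y hy
    · rw [GenCircuit.acceptable_iff] at hx
      rw [GenCircuit.acceptable_iff]
      exact g4 ε hε x hx.1 hx.2

end Vale.Agent.Results.P330.AcceptableForm
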