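import Mathlib
import Vale.Agent.P330.SixthIter
import Vale.Agent.P330.Reduction

namespace Vale.Agent.Results.P330.SixthDichotomy

open Vale.Agent.P330

/-- The threshold `1/6` for generalized circuits in which every gate must be `ε`-satisfied.

* Easy side.  For every generalized circuit `G` and every rational `ε ≥ 1/6` an explicit procedure
  produces an assignment with values in `[0,1]` that `ε`-satisfies ALL gates:
  for `1/6 ≤ ε < 1/4` the assignment `G.solve6 ε` (every node carries one of seven states, all nodes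
  start in the same state, `3 |V|` synchronous rounds of the local rule `stRule`, then the value
  of the state is read off; the values are among `ε, 2ε, 3ε, 1/2 - ε, 1 - 3ε, 1 - ε`);
  for `1/4 ≤ ε < 1/2` the assignment `G.solve ε`; for `ε ≥ 1/2` the all-`1/2` assignment.
* Hard side.  For every `ε < 1/6` and every instance `C` of Pure-Circuit (gates NOT, OR, AND, NOR,
  PURIFY), the generalized circuit `C.toGen` (the nodes of `C` and twelve auxiliary nodes for each of
  them, gates given by a local table) has the property that every assignment with values in `[0,1]`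
  that `ε`-satisfies all its gates becomes a solution of `C` when each value `t` of a node of `C` is
  read as `0` if `t ≤ ε`, as `1` if `t ≥ 1 - ε`, and as `⊥` otherwise. -/
theorem result :
    (∀ (V : Type) [Fintype V] (G : GenCircuit V) (ε : ℚ),
      (1 / 6 ≤ ε → ε < 1 / 4 →
        (∀ v, 0 ≤ G.solve6 ε v ∧ G.solve6 ε v ≤ 1) ∧
        (∀ v, G.solve6 ε v = ε ∨ G.solve6 ε v = 2 * ε ∨ G.solve6 ε v = 3 * ε ∨
          G.solve6 ε v = 1 / 2 - ε ∨ G.solve6 ε v = 1 - 3 * ε ∨ G.solve6 ε v = 1 - ε) ∧
        (∀ v k, G.gate v = some k → k.Sat ε (G.solve6 ε) v)) ∧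
      (1 / 4 ≤ ε → ε < 1 / 2 →
        (∀ v, 0 ≤ G.solve ε v ∧ G.solve ε v ≤ 1) ∧
        (∀ v k, G.gate v = some k → k.Sat ε (G.solve ε) v)) ∧
      (1 / 2 ≤ ε → ∀ v k, G.gate v = some k → k.Sat ε (fun _ => 1 / 2) v)) ∧
    (∀ (N : Type) (C : PureCircuit N) (ε : ℚ), ε < 1 / 6 →
      ∀ x : N ⊕ (N × Aux) → ℚ, (∀ v, 0 ≤ x v ∧ x v ≤ 1) →
        (∀ v k, C.toGen.gate v = some k → k.Sat ε x v) →
        C.IsSolution (fun v => dec ε (x (Sum.inl v)))) := by
  refine ⟨fun V _ G ε => ⟨fun h1 h2 => ⟨fun v => St.val_mem h1 h2 _, fun v => ?_,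
    fun v k hg => solve6_sat G h1 h2 v k hg⟩, fun h1 h2 => ?_, fun h2 v k hg => sat_half G h2 v k hg⟩,
    fun N C ε h6 x hx hsat => decode_isSolution C h6 x hx hsat⟩
  · show (G.stSolve ε v).val ε = ε ∨ (G.stSolve ε v).val ε = 2 * ε ∨ (G.stSolve ε v).val ε = 3 * ε ∨
      (G.stSolve ε v).val ε = 1 / 2 - ε ∨ (G.stSolve ε v).val ε = 1 - 3 * ε ∨
      (G.stSolve ε v).val ε = 1 - ε
    cases G.stSolve ε v <;> simp only [St.val, true_or, or_true]
  · obtain ⟨hfix, hrange⟩ := solve_fixed G h1 h2
    refine ⟨fun v => ?_, fun v k hg => sat_of_fixed G h1 h2.le hrange hfix v k hg⟩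
    have := hrange v
    constructor <;> linarith [this.1, this.2]

end Vale.Agent.Results.P330.SixthDichotomy
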