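import Mathlib
import Vale.Agent.P330.SixthIter
import Vale.Agent.P330.Reduction
import Vale.Agent.P330.Robust

namespace Vale.Agent.Results.P330.SixthRobust

open Vale.Agent.P330

/-- The threshold `1/6` for generalized circuits, with a gap-preserving hard side.

* Easy side.  For every generalized circuit `G` and every rational `ε ≥ 1/6` an explicit procedure
  produces an assignment with values in `[0,1]` that `ε`-satisfies ALL gates
  (`G.solve6 ε` for `1/6 ≤ ε < 1/4`, `G.solve ε` for `1/4 ≤ ε < 1/2`, all-`1/2` for `ε ≥ 1/2`).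
* Hard side, with violated gates.  For every `ε < 1/6` and every instance `C` of Pure-Circuit on a
  finite node set, the generalized circuit `C.toGen` has at most `13` times as many gates as `C`, and
  for EVERY assignment `x` with values in `[0,1]` the rounded assignment violates at most twice as
  many gates of `C` as `x` fails to `ε`-satisfy in `C.toGen`.  Hence if `x` fails on at most a `δ`
  fraction of the gates of `C.toGen`, the rounded assignment fails on at most a `26 δ` fraction of
  the gates of `C`; with no failure it is a solution of `C`. -/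
theorem result :
    (∀ (V : Type) [Fintype V] (G : GenCircuit V) (ε : ℚ),
      (1 / 6 ≤ ε → ε < 1 / 4 →
        (∀ v, 0 ≤ G.solve6 ε v ∧ G.solve6 ε v ≤ 1) ∧
        (∀ v k, G.gate v = some k → k.Sat ε (G.solve6 ε) v)) ∧
      (1 / 4 ≤ ε → ε < 1 / 2 →
        (∀ v, 0 ≤ G.solve ε v ∧ G.solve ε v ≤ 1) ∧
        (∀ v k, G.gate v = some k → k.Sat ε (G.solve ε) v)) ∧
      (1 / 2 ≤ ε → ∀ v k, G.gate v = some k → k.Sat ε (fun _ => 1 / 2) v)) ∧
    (∀ (N : Type) [Finite N] (C : PureCircuit N) (ε : ℚ), ε < 1 / 6 →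
      C.toGen.gates.ncard ≤ 13 * C.gates.ncard ∧
      ∀ x : N ⊕ (N × Aux) → ℚ, (∀ v, 0 ≤ x v ∧ x v ≤ 1) →
        (C.viol (fun v => dec ε (x (Sum.inl v)))).ncard ≤ 2 * (C.toGen.viol ε x).ncard ∧
        (∀ δ : ℚ, ((C.toGen.viol ε x).ncard : ℚ) ≤ δ * (C.toGen.gates.ncard : ℚ) →
          ((C.viol (fun v => dec ε (x (Sum.inl v)))).ncard : ℚ) ≤ 26 * δ * (C.gates.ncard : ℚ)) ∧
        ((∀ v k, C.toGen.gate v = some k → k.Sat ε x v) →
          C.IsSolution (fun v => dec ε (x (Sum.inl v))))) := by
  refine ⟨fun V _ G ε => ⟨fun h1 h2 => ⟨fun v => St.val_mem h1 h2 _,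
    fun v k hg => solve6_sat G h1 h2 v k hg⟩, fun h1 h2 => ?_, fun h2 v k hg => sat_half G h2 v k hg⟩,
    fun N _ C ε h6 => ⟨gates_ncard_le C, fun x hx => ⟨viol_ncard_le C h6 x hx,
      fun δ hδ => viol_fraction C h6 x hx hδ, fun hsat => decode_isSolution C h6 x hx hsat⟩⟩⟩
  obtain ⟨hfix, hrange⟩ := solve_fixed G h1 h2
  refine ⟨fun v => ?_, fun v k hg => sat_of_fixed G h1 h2.le hrange hfix v k hg⟩
  have := hrange v
  constructor <;> linarith [this.1, this.2]

end Vale.Agent.Results.P330.SixthRobust
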